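import Vale.Agent.P007.Bdl.B5

/-! The auxiliary quartic field (for the theorem about exceptional zeros and quadratic
subfields). -/

set_option autoImplicit false
set_option linter.all false

open NumberField IntermediateField Polynomial

namespace Vale.Agent.P007.H724

open Vale.Agent.P007 Vale.Agent.P007.Z Vale.Agent.P007.Z.Cyclo

lemma exists_prime4 (D : ℕ) (hD : 0 < D) :
    ∃ q : ℕ, q.Prime ∧ 4 ∣ q - 1 ∧ ¬ q ∣ D ∧ (∃ a : ZMod q, a ≠ 0 ∧ a ^ 4 = -1) ∧
      Real.log q ≤ 8 + 4 * Real.log D := by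
  set S : ℕ := (2 * D) ^ 4 + 1 with hS
  have hpos : 0 < (2 * D) ^ 4 := by positivity
  have hS1 : S ≠ 1 := by omega
  have hqp : (S.minFac).Prime := Nat.minFac_prime hS1
  have hqle : S.minFac ≤ S := Nat.minFac_le (by omega)
  have hqS' : S.minFac ∣ S := Nat.minFac_dvd S
  generalize hq : S.minFac = q at hqp hqle hqS'
  have : Fact q.Prime := ⟨hqp⟩
  have hq2D : ¬ q ∣ 2 * D := by
    intro h
    have h1 : q ∣ (2 * D) ^ 4 := h.trans (dvd_pow_self _ (by norm_num))
    have h2 : q ∣ 1 := (Nat.dvd_add_right h1).mp hqS'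
    exact hqp.one_lt.ne' (Nat.dvd_one.mp h2)
  have ha4 : ((2 * D : ℕ) : ZMod q) ^ 4 = -1 := by
    have h := (ZMod.natCast_eq_zero_iff S q).mpr hqS'
    rw [hS, Nat.cast_add, Nat.cast_pow, Nat.cast_one] at h
    exact eq_neg_of_add_eq_zero_left h
  have hq2 : q ≠ 2 := by
    intro h
    exact hq2D (h ▸ dvd_mul_right 2 D)
  have ha0 : ((2 * D : ℕ) : ZMod q) ≠ 0 := by rwa [Ne, ZMod.natCast_eq_zero_iff]
  have hone : (-1 : ZMod q) ≠ 1 := by
    have : Fact (2 < q) := ⟨lt_of_le_of_ne hqp.two_le (Ne.symm hq2)⟩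
    exact ZMod.neg_one_ne_one
  have hord : orderOf ((2 * D : ℕ) : ZMod q) = 2 ^ (2 + 1) := by
    refine orderOf_eq_prime_pow ?_ ?_
    · rw [show 2 ^ 2 = 4 by norm_num, ha4]
      exact hone
    · rw [show 2 ^ (2 + 1) = 4 * 2 by norm_num, pow_mul, ha4]
      norm_num
  refine ⟨q, hqp, ?_, ?_, ⟨_, ha0, ha4⟩, ?_⟩
  · have := ZMod.orderOf_dvd_card_sub_one ha0
    rw [hord] at this
    exact (by norm_num : (4 : ℕ) ∣ 2 ^ (2 + 1)).trans this
  · exact fun h => hq2D (h.mul_left 2)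
  · have h1 : (q : ℝ) ≤ S := by exact_mod_cast hqle
    have hD1 : (1 : ℝ) ≤ (D : ℝ) ^ 4 := by
      apply one_le_pow₀
      exact_mod_cast hD
    have h2 : (S : ℝ) ≤ 2 ^ 5 * (D : ℝ) ^ 4 := by
      rw [hS]
      push_cast
      nlinarith
    have hq0 : (0 : ℝ) < q := by exact_mod_cast hqp.pos
    have hD0 : (0 : ℝ) < D := by exact_mod_cast hD
    have hlog2 : Real.log 2 ≤ 1 := by
      have := Real.log_le_sub_one_of_pos (show (0 : ℝ) < 2 by norm_num)
      linarith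
    calc Real.log q ≤ Real.log (2 ^ 5 * (D : ℝ) ^ 4) := Real.log_le_log hq0 (h1.trans h2)
      _ = 5 * Real.log 2 + 4 * Real.log D := by
        rw [Real.log_mul (by positivity) (by positivity), Real.log_pow, Real.log_pow]
        norm_num
      _ ≤ 8 + 4 * Real.log D := by linarith

lemma card_range {q : ℕ} [NeZero q] (χ : DirichletCharacter ℂ q) {d : ℕ} (hd : 0 < d)
    (hχ : orderOf χ = d) : Nat.card χ.toUnitHom.range = d := by
  have h0 : NeZero d := ⟨hd.ne'⟩
  have hle : χ.toUnitHom.range ≤ rootsOfUnity d ℂ := by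
    rintro y ⟨u, rfl⟩
    rw [mem_rootsOfUnity]
    ext
    rw [Units.val_pow_eq_pow_val, MulChar.coe_toUnitHom, ← MulChar.pow_apply_coe, ← hχ,
      pow_orderOf_eq_one, MulChar.one_apply_coe, Units.val_one]
  have hdvd := Subgroup.card_dvd_of_le hle
  rw [Complex.card_rootsOfUnity] at hdvd
  refine Nat.dvd_antisymm hdvd ?_
  have h1 : orderOf χ ∣ Nat.card χ.toUnitHom.range := by
    apply orderOf_dvd_of_pow_eq_one
    ext u
    have h : (χ.toUnitHom u) ^ Nat.card χ.toUnitHom.range = 1 := by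
      have h2 : (⟨χ.toUnitHom u, ⟨u, rfl⟩⟩ : χ.toUnitHom.range) ^
          Nat.card χ.toUnitHom.range = 1 := pow_card_eq_one'
      exact congrArg Subtype.val h2
    rw [MulChar.pow_apply_coe, MulChar.one_apply_coe, ← MulChar.coe_toUnitHom,
      ← Units.val_pow_eq_pow_val, h, Units.val_one]
  rwa [hχ] at h1

section

variable (L V : Type) [Field L] [NumberField L] [Field V] [NumberField V] [Algebra L V]
variable {q : ℕ} [Fact q.Prime]
variable (χ : DirichletCharacter ℂ q) {ζ : V} (hζ : IsPrimitiveRoot ζ q)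
variable [IsCyclotomicExtension {q} L V]

lemma card_K0' (hq : ¬ (q : ℤ) ∣ discr L) [IsGalois ℚ L] [IsGalois ℚ V] {d : ℕ} (hd : 0 < d)
    (hχ : orderOf χ = d) : Nat.card (K0 L V χ hζ) * d = q - 1 := by
  set H := (Lim L V).fixingSubgroup with hH
  have hcardH : Nat.card H = q - 1 := by
    have h1 : Nat.card H = Module.finrank (Lim L V) V :=
      IsGalois.card_fixingSubgroup_eq_finrank (Lim L V)
    have h2 := Module.finrank_mul_finrank ℚ (Lim L V) V
    rw [finrank_Lim, finrank_V L V q hq] at h2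
    rw [h1]
    exact Nat.eq_of_mul_eq_mul_left Module.finrank_pos h2
  have hinj : Function.Injective ((hζ.autToPow ℚ).comp H.subtype) := by
    rw [injective_iff_map_eq_one]
    rintro ⟨σ, hσ⟩ h
    have h1 : hζ.autToPow ℚ σ = 1 := h
    have h2 := hζ.autToPow_spec ℚ σ
    rw [h1] at h2
    have hfix : σ ζ = ζ := by
      rw [← h2]
      have : ((1 : (ZMod q)ˣ) : ZMod q).val = 1 := by
        rw [Units.val_one]
        have : Fact (1 < q) := ⟨(Fact.out : q.Prime).one_lt⟩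
        exact ZMod.val_one q
      rw [this, pow_one]
    have h3 : σ ∈ (Lim L V ⊔ ℚ⟮ζ⟯).fixingSubgroup := by
      rw [fixingSubgroup_sup]
      refine ⟨hσ, ?_⟩
      have h4 : MulAction.stabilizer (V ≃ₐ[ℚ] V) ζ ≤ ℚ⟮ζ⟯.fixingSubgroup := by
        rw [← IntermediateField.le_iff_le, adjoin_simple_le_iff, mem_fixedField_iff]
        exact fun f hf => hf
      exact h4 hfix
    rw [sup_eq_top L V q hζ, fixingSubgroup_top, Subgroup.mem_bot] at h3
    exact Subtype.ext h3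
  have hsurj : Function.Surjective ((hζ.autToPow ℚ).comp H.subtype) := by
    have hc : Nat.card H = Nat.card (ZMod q)ˣ := by
      rw [hcardH, Nat.card_eq_fintype_card, ZMod.card_units_eq_totient,
        Nat.totient_prime Fact.out]
    exact ((Nat.bijective_iff_injective_and_card _).mpr ⟨hinj, hc⟩).2
  set φ : H →* ℂˣ := (kV V χ hζ).comp H.subtype with hφ
  have hker : Nat.card φ.ker = Nat.card (K0 L V χ hζ) := by
    have : K0 L V χ hζ = φ.ker.map H.subtype := by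
      ext σ
      simp only [K0, Subgroup.mem_inf, MonoidHom.mem_ker, Subgroup.mem_map]
      constructor
      · rintro ⟨h1, h2⟩
        exact ⟨⟨σ, h1⟩, h2, rfl⟩
      · rintro ⟨⟨τ, h1⟩, h2, rfl⟩
        exact ⟨h1, h2⟩
    rw [this]
    exact (Subgroup.card_map_of_injective H.subtype_injective).symm
  have hrange : φ.range = χ.toUnitHom.range := by
    ext y
    constructor
    · rintro ⟨σ, rfl⟩
      exact ⟨_, rfl⟩
    · rintro ⟨u, rfl⟩
      obtain ⟨σ, rfl⟩ := hsurj u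
      exact ⟨σ, rfl⟩
  have hcr : Nat.card χ.toUnitHom.range = d := card_range χ hd hχ
  have h5 : Nat.card φ.ker * Nat.card φ.range = Nat.card H := by
    rw [← Subgroup.index_ker, Subgroup.card_mul_index]
  rw [hker, hrange, hcr, hcardH] at h5
  exact h5

end

/-- complex conjugation of `V` is in the group `K0` -/
lemma totallyReal_W (L V W : Type) [Field L] [NumberField L] [Field V] [NumberField V]
    [Algebra L V] [Field W] [NumberField W] [Algebra W V] [IsTotallyReal L] [IsGalois ℚ V]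
    {q : ℕ} [Fact q.Prime] (χ : DirichletCharacter ℂ q) {ζ : V} (hζ : IsPrimitiveRoot ζ q)
    (hev : χ (-1) = 1)
    (hKW : ∀ g ∈ K0 L V χ hζ, ∀ y : W, g (algebraMap W V y) = algebraMap W V y) :
    IsTotallyReal W := by
  have hqp : q.Prime := Fact.out
  refine ⟨fun v => ?_⟩
  rw [InfinitePlace.isReal_iff]
  have : Algebra.IsAlgebraic W V := Algebra.IsAlgebraic.tower_top (K := ℚ) W
  set Φ : V →+* ℂ := ComplexEmbedding.lift V v.embedding with hΦ
  have hΦW : ∀ y : W, Φ (algebraMap W V y) = v.embedding y := fun y =>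
    ComplexEmbedding.lift_algebraMap_apply V _ y
  obtain ⟨σ, hσ⟩ := ComplexEmbedding.exists_comp_symm_eq_of_comp_eq (k := ℚ) Φ
    (ComplexEmbedding.conjugate Φ) (Subsingleton.elim _ _)
  have hc : ∀ x : V, Φ (σ.symm x) = (starRingEnd ℂ) (Φ x) := fun x => RingHom.congr_fun hσ x
  have hmem : σ.symm ∈ K0 L V χ hζ := by
    refine ⟨?_, ?_⟩
    · change σ.symm ∈ (Lim L V).fixingSubgroup
      rw [IntermediateField.mem_fixingSubgroup_iff]
      rintro _ ⟨x, rfl⟩
      apply Φ.injective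
      have h1 := IsTotallyReal.complexEmbedding_isReal (Φ.comp (algebraMap L V))
      have h2 : (starRingEnd ℂ) (Φ (algebraMap L V x)) = Φ (algebraMap L V x) :=
        RingHom.congr_fun h1 x
      exact (hc _).trans h2
    · change kV V χ hζ σ.symm = 1
      have hz1 : (Φ ζ) ^ q = 1 := by rw [← map_pow, hζ.pow_eq_one, map_one]
      have hn : ‖Φ ζ‖ = 1 := Complex.norm_eq_one_of_pow_eq_one hz1 hqp.ne_zero
      have h3 : σ.symm ζ * ζ = 1 := by
        apply Φ.injective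
        rw [map_mul, hc, map_one, mul_comm, Complex.mul_conj, Complex.normSq_eq_norm_sq, hn]
        norm_num
      have h4 := hζ.autToPow_spec ℚ σ.symm
      rw [← h4, ← pow_succ] at h3
      have h5 := hζ.dvd_of_pow_eq_one _ h3
      have h6 : ((hζ.autToPow ℚ σ.symm : (ZMod q)ˣ) : ZMod q) = -1 := by
        have h7 := (ZMod.natCast_eq_zero_iff _ _).mpr h5
        rw [Nat.cast_add, Nat.cast_one, ZMod.natCast_zmod_val] at h7
        exact eq_neg_of_add_eq_zero_left h7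
      have h8 : (kV V χ hζ σ.symm : ℂ) = χ (hζ.autToPow ℚ σ.symm : ZMod q) := rfl
      ext
      rw [h8, h6, hev]
      rfl
  have h9 : ComplexEmbedding.conjugate v.embedding = v.embedding := by
    ext y
    rw [ComplexEmbedding.conjugate_coe_eq, ← hΦW, ← hc, hKW _ hmem]
  exact h9

lemma exists_W4 (L : Type) [Field L] [NumberField L] [IsTotallyReal L] [IsGalois ℚ L]
    (q : ℕ) (hqp : q.Prime) (hdq : 4 ∣ q - 1) (ha : ∃ a : ZMod q, a ≠ 0 ∧ a ^ 4 = -1)
    (hqD : ¬ (q : ℤ) ∣ discr L) :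
    ∃ (χ : DirichletCharacter ℂ q) (W : Type) (_ : Field W) (_ : NumberField W)
      (_ : Algebra L W) (κ : (W ≃ₐ[ℚ] W) →* ℂˣ),
      orderOf χ = 4 ∧ χ (-1) = 1 ∧ IsTotallyReal W ∧ IsGalois ℚ W ∧
      Module.finrank ℚ W = 4 * Module.finrank ℚ L ∧
      Real.log |(discr W : ℝ)| ≤
        (4 : ℕ) * (Real.log |(discr L : ℝ)| + Module.finrank ℚ L * Real.log q) ∧
      (∀ σ : W ≃ₐ[ℚ] W, (∀ x : L, σ (algebraMap L W x) = algebraMap L W x) → κ σ = 1 → σ = 1) ∧
      (∀ σ : W ≃ₐ[ℚ] W, κ σ ^ 4 = 1) ∧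
      ∀ (p : ℕ), p.Prime → p ≠ q → ∀ (Q : Ideal (𝓞 W)) (σ : W ≃ₐ[ℚ] W), Q.IsMaximal →
        (p : 𝓞 W) ∈ Q → (∀ x : 𝓞 W, RingOfIntegers.mapRingEquiv σ.toRingEquiv x - x ^ p ∈ Q) →
        (κ σ : ℂ) = χ (p : ZMod q) := by
  have : Fact q.Prime := ⟨hqp⟩
  obtain ⟨χ, hχ⟩ : ∃ χ : DirichletCharacter ℂ q, orderOf χ = 4 := by
    have h1 : 4 ∣ Fintype.card (ZMod q) - 1 := by rwa [ZMod.card]
    exact MulChar.exists_mulChar_orderOf (ZMod q) h1
      (Complex.isPrimitiveRoot_exp 4 (by norm_num))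
  have hχ4 : χ ^ 4 = 1 := by rw [← hχ]; exact pow_orderOf_eq_one χ
  have hev : χ (-1) = 1 := by
    obtain ⟨a, ha0, ha4⟩ := ha
    have hu : IsUnit a := isUnit_iff_ne_zero.mpr ha0
    rw [← ha4, map_pow, ← MulChar.pow_apply' _ (by norm_num), hχ4, MulChar.one_apply hu]
  let V := CyclotomicField q L
  have hζ := IsCyclotomicExtension.zeta_spec q L V
  have hGV : IsGalois ℚ V := isGalois_V L V q
  have hcard := card_K0' L V χ hζ hqD (by norm_num : 0 < 4) hχ
  let W := WF L V χ hζ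
  have hGW : IsGalois ℚ W := isGalois_WF L V χ hζ
  let algLW : Algebra L W :=
    (((IntermediateField.inclusion (Lim_le_WF L V χ hζ)).toRingHom).comp
      ((eL L V).toRingEquiv.toRingHom)).toAlgebra
  have hLW : ∀ x : L, ((algebraMap L W x : W) : V) = algebraMap L V x := fun x => rfl
  have hst : IsScalarTower L W V := IsScalarTower.of_algebraMap_eq (fun x => rfl)
  have hmemW : ∀ x : V, (∀ g ∈ K0 L V χ hζ, g x = x) → ∃ y : W, algebraMap W V y = x := by
    intro x hx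
    exact ⟨⟨x, (mem_fixedField_iff _ _).mpr hx⟩, rfl⟩
  have hKW : ∀ g ∈ K0 L V χ hζ, ∀ y : W, g (algebraMap W V y) = algebraMap W V y := by
    intro g hg y
    exact (mem_fixedField_iff _ _).mp y.2 g hg
  have hWK : ∀ g : V ≃ₐ[ℚ] V, (∀ y : W, g (algebraMap W V y) = algebraMap W V y) →
      g ∈ K0 L V χ hζ := by
    intro g hg
    have h1 : g ∈ W.fixingSubgroup := by
      rw [IntermediateField.mem_fixingSubgroup_iff]
      intro x hx
      exact hg ⟨x, hx⟩
    rwa [fixingSubgroup_fixedField] at h1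
  have hK1 : ∀ g ∈ K0 L V χ hζ, kV V χ hζ g = 1 := fun g hg => hg.2
  obtain ⟨κ, hκ⟩ := exists_kappa V W χ hζ (fun g hg => hK1 g (hWK g hg))
  have hdim1 : Module.finrank W V * 4 = q - 1 := by
    have : Module.finrank W V = Nat.card (K0 L V χ hζ) := finrank_fixedField_eq_card _
    rw [this]
    exact hcard
  have hqpos : 0 < q - 1 := by have := hqp.two_le; omega
  have hdim2 : Module.finrank L W = 4 := by
    have h1 := Module.finrank_mul_finrank L W V
    rw [finrank_LV L V q hqD, ← hdim1, mul_comm] at h1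
    exact Nat.eq_of_mul_eq_mul_left Module.finrank_pos h1
  have hdim3 : Module.finrank ℚ W = 4 * Module.finrank ℚ L := by
    have h1 := Module.finrank_mul_finrank ℚ L W
    rw [hdim2] at h1
    rw [← h1, mul_comm]
  refine ⟨χ, W, inferInstance, inferInstance, algLW, κ, hχ, hev, ?_, hGW, hdim3,
    discr_bound L V W hqD hdim1, ?_, ?_, ?_⟩
  · exact totallyReal_W L V W χ hζ hev hKW
  · intro σ hσL hσκ
    obtain ⟨g, hg⟩ := exists_lift V W σ
    have h1 : kV V χ hζ g = 1 := by rw [← hκ g σ hg, hσκ]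
    have h2 : g ∈ K0 L V χ hζ := by
      refine ⟨?_, h1⟩
      change g ∈ (Lim L V).fixingSubgroup
      rw [IntermediateField.mem_fixingSubgroup_iff]
      rintro _ ⟨x, rfl⟩
      have h3 := hg (algebraMap L W x)
      rw [hσL] at h3
      exact h3
    ext y
    have h3 := hKW g h2 y
    rw [hg] at h3
    exact h3
  · intro σ
    obtain ⟨g, hg⟩ := exists_lift V W σ
    rw [hκ g σ hg]
    ext
    rw [Units.val_pow_eq_pow_val]
    change (χ.toUnitHom (hζ.autToPow ℚ g) : ℂ) ^ 4 = 1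
    rw [MulChar.coe_toUnitHom, ← MulChar.pow_apply_coe, hχ4, MulChar.one_apply_coe]
  · intro p hp hpq Q σ hQ hpQ hσ
    obtain ⟨g, hg⟩ := exists_lift V W σ
    rw [hκ g σ hg]
    exact kV_frob V W χ hζ (K0 L V χ hζ) hmemW hK1 g σ hg p hp hpq Q hQ hpQ hσ

theorem exists_aux4 (N : ℕ) : ∃ C : ℝ, ∀ (L : Type) [Field L] [NumberField L]
    [IsTotallyReal L] [IsGalois ℚ L], Module.finrank ℚ L ≤ N →
    ∃ (q : ℕ) (χ : DirichletCharacter ℂ q) (W : Type) (_ : Field W) (_ : NumberField W)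
      (_ : Algebra L W) (κ : (W ≃ₐ[ℚ] W) →* ℂˣ),
      q.Prime ∧ orderOf χ = 4 ∧ χ (-1) = 1 ∧ IsTotallyReal W ∧ IsGalois ℚ W ∧
      Module.finrank ℚ W = 4 * Module.finrank ℚ L ∧
      Real.log q ≤ C * (1 + Real.log |(discr L : ℝ)|) ∧
      Real.log |(discr W : ℝ)| ≤ C * (1 + Real.log |(discr L : ℝ)|) ∧
      (∀ σ : W ≃ₐ[ℚ] W, (∀ x : L, σ (algebraMap L W x) = algebraMap L W x) → κ σ = 1 → σ = 1) ∧
      (∀ σ : W ≃ₐ[ℚ] W, κ σ ^ 4 = 1) ∧
      ∀ (p : ℕ), p.Prime → p ≠ q → ∀ (Q : Ideal (𝓞 W)) (σ : W ≃ₐ[ℚ] W), Q.IsMaximal →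
        (p : 𝓞 W) ∈ Q → (∀ x : 𝓞 W, RingOfIntegers.mapRingEquiv σ.toRingEquiv x - x ^ p ∈ Q) →
        (κ σ : ℂ) = χ (p : ZMod q) := by
  refine ⟨8 + 4 * (1 + N * 8), ?_⟩
  intro L _ _ _ _ hLN
  have hDpos : 0 < (discr L).natAbs := Int.natAbs_pos.mpr (discr_ne_zero L)
  obtain ⟨q, hqp, hdq, hqD, ha, hqlog⟩ := exists_prime4 (discr L).natAbs hDpos
  have hqD' : ¬ (q : ℤ) ∣ discr L := by rwa [Int.natCast_dvd]
  obtain ⟨χ, W, i1, i2, i3, κ, h1, h1', h2, h3, h4, h5, h6, h7, h8⟩ :=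
    exists_W4 L q hqp hdq ha hqD'
  have hLa : |(discr L : ℝ)| = ((discr L).natAbs : ℝ) := by
    rw [Nat.cast_natAbs, Int.cast_abs]
  have hlogD : 0 ≤ Real.log |(discr L : ℝ)| := by
    rw [hLa]
    exact Real.log_nonneg (by exact_mod_cast hDpos)
  rw [← hLa] at hqlog
  set X := Real.log |(discr L : ℝ)| with hX
  have hLN' : (Module.finrank ℚ L : ℝ) ≤ N := by exact_mod_cast hLN
  have hN0 : (0 : ℝ) ≤ N := by (clear * -; positivity)
  have hq1 : Real.log q ≤ 8 * (1 + X) := by linarith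
  have hlogq0 : 0 ≤ Real.log q := Real.log_nonneg (by exact_mod_cast hqp.one_lt.le)
  have hX1 : 0 ≤ 1 + X := by linarith
  refine ⟨q, χ, W, i1, i2, i3, κ, hqp, h1, h1', h2, h3, h4, ?_, ?_, h6, h7, h8⟩
  · refine hq1.trans ?_
    gcongr
    have : 0 ≤ (4 : ℝ) * (1 + N * 8) := by (clear * -; positivity)
    linarith only [this]
  · calc Real.log |(discr W : ℝ)| ≤ (4 : ℕ) * (X + Module.finrank ℚ L * Real.log q) := h5
      _ ≤ 4 * (X + N * (8 * (1 + X))) := by
        push_cast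
        gcongr
      _ ≤ 4 * ((1 + X) + N * (8 * (1 + X))) := by gcongr; linarith only []
      _ = (4 * (1 + N * 8)) * (1 + X) := by ring
      _ ≤ (8 + 4 * (1 + N * 8)) * (1 + X) := by
        gcongr
        linarith only []

end Vale.Agent.P007.H724
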